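import Vale.Agent.P287Z.O.L.Free
import Vale.Agent.P287Z.O.L.B1b

/-!
# The linear Koszul complex of a graded module (P287 port of P294-L, block B9)
-/

open CategoryTheory Limits MvPolynomial

namespace Vale.Agent.P287Z.O.H503

open L

/-- multiplication by `x_i` from degree `a` to degree `b` (zero if `b ≠ a + 1`) -/
noncomputable def xl (M : GrS) (i : Fin 6) (a b : ℤ) : M.obj ⟨a⟩ →ₗ[ℂ] M.obj ⟨b⟩ :=
  (mon M (Finsupp.single i 1) a b).hom

theorem xl_comm (M : GrS) (i j : Fin 6) {a b c : ℤ} (hab : a + 1 = b) (v : M.obj ⟨a⟩) :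
    xl M j b c (xl M i a b v) = xl M i b c (xl M j a b v) := by
  have h1 := mon_add M (Finsupp.single i 1) (Finsupp.single j 1) (a := a) (b := b)
    (by simpa using hab) c
  have h2 := mon_add M (Finsupp.single j 1) (Finsupp.single i 1) (a := a) (b := b)
    (by simpa using hab) c
  rw [add_comm, h1] at h2
  have h3 := congrArg (fun φ => φ.hom v) h2
  exact h3

theorem xl_nat {M N : GrS} (φ : M ⟶ N) (i : Fin 6) (a b : ℤ) (v : M.obj ⟨a⟩) :
    xl N i a b ((φ.app ⟨a⟩).hom v) = (φ.app ⟨b⟩).hom (xl M i a b v) := by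
  have h1 := congrArg (fun ψ => ψ.hom v) (mon_natural φ (Finsupp.single i 1) a b)
  exact h1.symm

/-- the sign -/
def sn (i : Fin 6) (J : Finset (Fin 6)) : ℤ := (-1) ^ (J.filter (· < i)).card

theorem sn_insert (i k : Fin 6) (J : Finset (Fin 6)) (hk : k ∉ J) :
    sn i (insert k J) = if k < i then - sn i J else sn i J := by
  unfold sn
  split_ifs with h
  · rw [Finset.filter_insert, if_pos h, Finset.card_insert_of_notMem
      (fun hc => hk (Finset.mem_filter.mp hc).1), pow_succ]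
    ring
  · rw [Finset.filter_insert, if_neg h]

theorem sn_sq (i : Fin 6) (J : Finset (Fin 6)) : sn i J * sn i J = 1 := by
  unfold sn
  rw [← mul_pow]
  simp

theorem sn_swap (i k : Fin 6) (J : Finset (Fin 6)) (hi : i ∉ J) (hk : k ∉ J) (h : i ≠ k) :
    sn k J * sn i (insert k J) = - (sn i J * sn k (insert i J)) := by
  rw [sn_insert i k J hk, sn_insert k i J hi]
  rcases lt_or_gt_of_ne h with h | h
  · rw [if_neg (not_lt.2 h.le), if_pos h]
    ring
  · rw [if_pos h, if_neg (not_lt.2 h.le)]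
    ring

/-- the Koszul differential -/
noncomputable def kD (M : GrS) (a b : ℤ) (f : Finset (Fin 6) → M.obj ⟨a⟩)
    (J : Finset (Fin 6)) : M.obj ⟨b⟩ :=
  ∑ i ∈ Jᶜ, sn i J • xl M i a b (f (insert i J))

theorem kD_kD (M : GrS) {a b c : ℤ} (hab : a + 1 = b) (f : Finset (Fin 6) → M.obj ⟨a⟩)
    (J : Finset (Fin 6)) : kD M b c (kD M a b f) J = 0 := by
  let T : Fin 6 → Fin 6 → M.obj ⟨c⟩ := fun i k =>
    if i ∉ J ∧ k ∉ J ∧ i ≠ k then (sn i J * sn k (insert i J)) •
      xl M i b c (xl M k a b (f (insert k (insert i J)))) else 0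
  have h1 : kD M b c (kD M a b f) J = ∑ i, ∑ k, T i k := by
    unfold kD
    rw [← Finset.sum_subset (Finset.subset_univ Jᶜ)]
    · refine Finset.sum_congr rfl fun i hi => ?_
      rw [Finset.mem_compl] at hi
      rw [map_sum, Finset.smul_sum, ← Finset.sum_subset (Finset.subset_univ (insert i J)ᶜ)]
      · refine Finset.sum_congr rfl fun k hk => ?_
        rw [Finset.mem_compl, Finset.mem_insert, not_or] at hk
        have : T i k = (sn i J * sn k (insert i J)) •
          xl M i b c (xl M k a b (f (insert k (insert i J)))) :=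
          if_pos ⟨hi, hk.2, fun h => hk.1 h.symm⟩
        rw [this, map_zsmul, smul_smul]
      · intro k _ hk
        refine if_neg fun h => ?_
        rw [Finset.mem_compl, not_not, Finset.mem_insert] at hk
        rcases hk with hk | hk
        · exact h.2.2 hk.symm
        · exact h.2.1 hk
    · intro i _ hi
      rw [Finset.mem_compl, not_not] at hi
      exact Finset.sum_eq_zero fun k _ => if_neg fun h => h.1 hi
  have h2 : ∀ i k, T k i = - T i k := by
    intro i k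
    by_cases h : i ∉ J ∧ k ∉ J ∧ i ≠ k
    · have e1 : T i k = _ := if_pos h
      have e2 : T k i = _ := if_pos ⟨h.2.1, h.1, h.2.2.symm⟩
      rw [e1, e2, sn_swap i k J h.1 h.2.1 h.2.2, neg_smul, Finset.insert_comm, xl_comm M k i hab]
    · have e1 : T i k = 0 := if_neg h
      have e2 : T k i = 0 := if_neg fun h' => h ⟨h'.2.1, h'.1, h'.2.2.symm⟩
      rw [e1, e2, neg_zero]
  have h3 : ∑ i, ∑ k, T i k = - ∑ i, ∑ k, T i k := by
    conv_lhs => rw [Finset.sum_comm]
    rw [← Finset.sum_neg_distrib]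
    refine Finset.sum_congr rfl fun i _ => ?_
    rw [← Finset.sum_neg_distrib]
    exact Finset.sum_congr rfl fun k _ => h2 i k
  rw [h1]
  have h4 : (2 : ℂ) • ∑ i, ∑ k, T i k = 0 := by
    rw [two_smul]
    nth_rewrite 1 [h3]
    exact neg_add_cancel _
  exact (smul_eq_zero.1 h4).resolve_left two_ne_zero

theorem kD_nat {M N : GrS} (φ : M ⟶ N) (a b : ℤ) (f : Finset (Fin 6) → M.obj ⟨a⟩)
    (J : Finset (Fin 6)) :
    kD N a b (fun I => (φ.app ⟨a⟩).hom (f I)) J = (φ.app ⟨b⟩).hom (kD M a b f J) := by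
  unfold kD
  rw [map_sum]
  refine Finset.sum_congr rfl fun i _ => ?_
  rw [map_zsmul, xl_nat]

theorem kD_sub (M : GrS) (a b : ℤ) (f g : Finset (Fin 6) → M.obj ⟨a⟩) (J : Finset (Fin 6)) :
    kD M a b (fun I => f I - g I) J = kD M a b f J - kD M a b g J := by
  unfold kD
  rw [← Finset.sum_sub_distrib]
  refine Finset.sum_congr rfl fun i _ => ?_
  rw [map_sub, smul_sub]

theorem kD_add (M : GrS) (a b : ℤ) (f g : Finset (Fin 6) → M.obj ⟨a⟩) (J : Finset (Fin 6)) :
    kD M a b (fun I => f I + g I) J = kD M a b f J + kD M a b g J := by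
  unfold kD
  rw [← Finset.sum_add_distrib]
  refine Finset.sum_congr rfl fun i _ => ?_
  rw [map_add, smul_add]

/-- the differential lowers the cardinality -/
theorem kD_supp (M : GrS) {a b : ℤ} {j : ℕ} {f : Finset (Fin 6) → M.obj ⟨a⟩}
    (hf : ∀ J, J.card ≠ j + 1 → f J = 0) (J : Finset (Fin 6)) (hJ : J.card ≠ j) :
    kD M a b f J = 0 := by
  unfold kD
  refine Finset.sum_eq_zero fun i hi => ?_
  rw [Finset.mem_compl] at hi
  rw [hf _ (by rw [Finset.card_insert_of_notMem hi]; lia), map_zero, smul_zero]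

/-- exactness of the linear Koszul complex of `M` at the position `j` -/
def KE (M : GrS) (j : ℕ) : Prop := ∀ a b c : ℤ, a + 1 = b → b + 1 = c →
  ∀ f : Finset (Fin 6) → M.obj ⟨b⟩, (∀ J, J.card ≠ j → f J = 0) → (∀ J, kD M b c f J = 0) →
    ∃ g : Finset (Fin 6) → M.obj ⟨a⟩, (∀ J, J.card ≠ j + 1 → g J = 0) ∧ ∀ J, kD M a b g J = f J

theorem KE_six (M : GrS) {j : ℕ} (hj : 7 ≤ j) : KE M j := by
  intro a b c _ _ f hf _
  refine ⟨fun _ => 0, fun _ _ => rfl, fun J => ?_⟩
  have h1 : J.card ≤ 6 := by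
    simpa using Finset.card_le_univ J
  rw [hf J (by lia)]
  exact Finset.sum_eq_zero fun i _ => by rw [map_zero, smul_zero]

/-- short exact sequences, elementwise -/
structure SES {M' F M : GrS} (ι : M' ⟶ F) (π : F ⟶ M) : Prop where
  inj : ∀ (a : ℤ) (v : M'.obj ⟨a⟩), (ι.app ⟨a⟩).hom v = 0 → v = 0
  sur : ∀ (a : ℤ) (w : M.obj ⟨a⟩), ∃ v, (π.app ⟨a⟩).hom v = w
  w : ∀ (a : ℤ) (v : M'.obj ⟨a⟩), (π.app ⟨a⟩).hom ((ι.app ⟨a⟩).hom v) = 0
  ex : ∀ (a : ℤ) (v : F.obj ⟨a⟩), (π.app ⟨a⟩).hom v = 0 → ∃ u, (ι.app ⟨a⟩).hom u = v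

/-- the snake argument -/
theorem SES.KE {M' F M : GrS} {ι : M' ⟶ F} {π : F ⟶ M} (h : SES ι π) {j : ℕ}
    (hM : KE M (j + 1)) (hF : KE F j) : KE M' j := by
  intro a b c hab hbc f hf hDf
  classical
  obtain ⟨g, hg, hDg⟩ := hF a b c hab hbc (fun J => (ι.app ⟨b⟩).hom (f J))
    (fun J hJ => by rw [hf J hJ, map_zero]) (fun J => by rw [kD_nat, hDf, map_zero])
  obtain ⟨k, hk, hDk⟩ := hM (a - 1) a b (by lia) hab (fun J => (π.app ⟨a⟩).hom (g J))
    (fun J hJ => by rw [hg J hJ, map_zero]) (fun J => by rw [kD_nat, hDg, h.w])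
  have hl : ∀ J, ∃ v : F.obj ⟨a - 1⟩, (π.app ⟨a - 1⟩).hom v = k J ∧
      (J.card ≠ j + 1 + 1 → v = 0) := by
    intro J
    by_cases hJ : J.card = j + 1 + 1
    · obtain ⟨v, hv⟩ := h.sur (a - 1) (k J)
      exact ⟨v, hv, fun h' => absurd hJ h'⟩
    · exact ⟨0, by rw [map_zero, hk J hJ], fun _ => rfl⟩
  choose l hl1 hl2 using hl
  have hm : ∀ J, ∃ u : M'.obj ⟨a⟩, (ι.app ⟨a⟩).hom u = g J - kD F (a - 1) a l J := by
    intro J
    refine h.ex a _ ?_
    rw [map_sub, ← kD_nat]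
    have : (fun I => (π.app ⟨a - 1⟩).hom (l I)) = k := funext hl1
    rw [this, hDk J, sub_self]
  choose u hu using hm
  refine ⟨u, fun J hJ => ?_, fun J => ?_⟩
  · apply h.inj
    rw [hu, hg J hJ, kD_supp F hl2 J hJ, sub_self]
  · rw [← sub_eq_zero]
    apply h.inj
    rw [map_sub, sub_eq_zero, ← kD_nat]
    have : (fun I => (ι.app ⟨a⟩).hom (u I)) = fun I => g I - kD F (a - 1) a l I := funext hu
    rw [this, kD_sub, hDg J, kD_kD F (by lia), sub_zero]

end Vale.Agent.P287Z.O.H503
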