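import Vale.Agent.P287Z.O.H503.Kz
import Vale.Agent.P287Z.O.H335.Kos4

/-!
# Exactness of the linear Koszul complex of free modules (P287 port of P294-L, block B9)
-/

open CategoryTheory Limits MvPolynomial

namespace Vale.Agent.P287Z.O.H503

open L H335

theorem hg_hz {k : ℤ} {f : MvPolynomial (Fin 6) ℂ} : V.Hg (2 * k) f ↔ Hz k f := by
  rw [hg_iff, hz_iff]
  constructor
  · intro h m hm
    have := h m (mem_support_iff.2 hm)
    lia
  · intro h m hm
    rw [h m (mem_support_iff.1 hm)]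

theorem dvd_small {W p : MvPolynomial (Fin 6) ℂ} (hW : Hz 3 W) (h : W ∣ p) {m : ℤ} (hp : Hz m p)
    (hm : m < 3) : p = 0 := by
  obtain ⟨u, rfl⟩ := h
  have h1 := hc_self hp
  have h2 := hc_mul hW (m - 3) u
  rw [show 3 + (m - 3) = m by ring, h1] at h2
  rw [h2, (hc_hz (m - 3) u).eq_zero (by lia), mul_zero]

theorem kos_poly {W : MvPolynomial (Fin 6) ℂ} (hW : V.Hg 6 W) {j : ℕ} (hj : 1 ≤ j)
    (hj2 : W ≠ 0 → 2 ≤ j) {n : ℤ} (f : Finset (Fin 6) → MvPolynomial (Fin 6) ℂ)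
    (hf : ∀ I, V.Hg n (f I)) (hs : ∀ I, I.card ≠ j → f I = 0)
    (h0 : ∀ J, W ∣ io (mu (xs (σ := Fin 6))) f J) :
    ∃ g : Finset (Fin 6) → MvPolynomial (Fin 6) ℂ, (∀ I, V.Hg (n - 2) (g I)) ∧
      (∀ I, I.card ≠ j + 1 → g I = 0) ∧ ∀ J, W ∣ f J - io (mu (xs (σ := Fin 6))) g J := by
  have hz : (∀ I, f I = 0) → ∃ g : Finset (Fin 6) → MvPolynomial (Fin 6) ℂ,
      (∀ I, V.Hg (n - 2) (g I)) ∧ (∀ I, I.card ≠ j + 1 → g I = 0) ∧
      ∀ J, W ∣ f J - io (mu (xs (σ := Fin 6))) g J := by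
    intro h
    refine ⟨fun _ => 0, fun _ => hga_zero _, fun _ _ => rfl, fun J => ?_⟩
    have : io (mu (xs (σ := Fin 6))) (fun _ => (0 : MvPolynomial (Fin 6) ℂ)) J = 0 := by
      simp [io]
    rw [h, this, sub_zero]
    exact dvd_zero _
  by_cases hn : 2 ∣ n
  swap
  · exact hz fun I => hga_odd_eq_zero (hf I) hn
  obtain ⟨k, rfl⟩ := hn
  have hW5 : Hz 3 W := hg_hz.1 (by simpa using hW)
  obtain ⟨c, hc⟩ : ∃ c : ℤ, c = k + j := ⟨_, rfl⟩
  have hfz : ∀ I, Hz (c - I.card) (f I) := by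
    intro I
    by_cases hI : I.card = j
    · rw [hI, hc, add_sub_cancel_right]
      exact hg_hz.1 (hf I)
    · rw [hs I hI]
      exact Hz.zero _
  by_cases hc0 : c = 0
  · exact hz fun I => (hg_hz.1 (hf I)).eq_zero (by lia)
  have fin : ∀ g : Finset (Fin 6) → MvPolynomial (Fin 6) ℂ, (∀ I, Hz (c - I.card) (g I)) →
      (∀ I, I.card ≠ j + 1 → g I = 0) → ∀ I, V.Hg (2 * k - 2) (g I) := by
    intro g h1 h2 I
    by_cases hI : I.card = j + 1
    · have h3 := h1 I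
      rw [show 2 * k - 2 = 2 * (k - 1) by ring, hg_hz]
      convert h3 using 1
      rw [hI, hc]
      push_cast
      ring
    · rw [h2 I hI]
      exact hga_zero _
  have key : (∀ J, io (mu (xs (σ := Fin 6))) f J = 0) →
      ∃ g : Finset (Fin 6) → MvPolynomial (Fin 6) ℂ, (∀ I, V.Hg (2 * k - 2) (g I)) ∧
      (∀ I, I.card ≠ j + 1 → g I = 0) ∧ ∀ J, W ∣ f J - io (mu (xs (σ := Fin 6))) g J := by
    intro h
    obtain ⟨g, h1, h2, h3⟩ := io_exact f c hc0 hfz h
    refine ⟨g, fin g h1 (h3 j hs), h3 j hs, fun J => ?_⟩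
    rw [h2, sub_self]
    exact dvd_zero _
  by_cases hW0 : W = 0
  · exact key fun J => by
      have := h0 J
      rwa [hW0, zero_dvd_iff] at this
  · by_cases hc5 : c = 3
    · refine key fun J => ?_
      by_cases hJ : J.card + 1 = j
      · refine dvd_small hW5 (h0 J) (io_hz (fun i => hz_X i) hfz J) ?_
        have := hj2 hW0
        lia
      · refine Finset.sum_eq_zero fun i hi => ?_
        have hi' : i ∉ J := by simpa using hi
        rw [hs _ (by rw [Finset.card_insert_of_notMem hi']; exact hJ), map_zero, smul_zero]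
    · obtain ⟨g, h1, h2, h3⟩ := ioW_exact hW5 hW0 j c hc0 hc5 f hfz hs h0
      exact ⟨g, fin g h1 h2, h2, h3⟩

section

variable {ι : Type} [Fintype ι] (W : MvPolynomial (Fin 6) ℂ) {q : ι → ℤ}

theorem xl_mk (i : Fin 6) {a b : ℤ} (hab : a + 1 = b) {v : ι → MvPolynomial (Fin 6) ℂ}
    (h : ∀ k, V.Hg (2 * a - q k) (v k)) (h' : ∀ k, V.Hg (2 * b - q k) (X i * v k)) :
    xl (FrO W q) i a b (FrO.mk W v h) = FrO.mk W (fun k => X i * v k) h' := by
  have h1 := mon_apply_of_eq (M := FrO W q) (Finsupp.single i 1) (a := a) (b := b)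
    (by simpa using hab) (FrO.mk W v h)
  exact h1

theorem kD_mk {a b : ℤ} (hab : a + 1 = b) (v : Finset (Fin 6) → ι → MvPolynomial (Fin 6) ℂ)
    (h : ∀ I k, V.Hg (2 * a - q k) (v I k)) (J : Finset (Fin 6))
    (h' : ∀ k, V.Hg (2 * b - q k) (io (mu (xs (σ := Fin 6))) (fun I => v I k) J)) :
    kD (FrO W q) a b (fun I => FrO.mk W (v I) (h I)) J =
      FrO.mk W (fun k => io (mu (xs (σ := Fin 6))) (fun I => v I k) J) h' := by
  have h1 : ∀ i k, V.Hg (2 * b - q k) ((sn i J : ℂ) • (X i * v (insert i J) k)) := fun i k =>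
    hga_smul _ (hga_mul' (hga_X i) (h _ k) (by lia))
  have h2 : ∀ i k, V.Hg (2 * b - q k) (X i * v (insert i J) k) := fun i k =>
    hga_mul' (hga_X i) (h _ k) (by lia)
  have h3 : (fun k => io (mu (xs (σ := Fin 6))) (fun I => v I k) J) = fun k =>
      ∑ i ∈ Jᶜ, (fun k => (sn i J : ℂ) • (X i * v (insert i J) k)) k := by
    funext k
    refine Finset.sum_congr rfl fun i _ => ?_
    rw [mu_apply, ← Int.cast_smul_eq_zsmul ℂ]
    rfl
  rw [FrO.mk_congr W h3 (h' := fun k => hga_sum _ fun i _ => h1 i k), FrO.mk_sum W _ _ h1]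
  refine Finset.sum_congr rfl fun i _ => ?_
  rw [xl_mk W i hab (h _) (h2 i), ← Int.cast_smul_eq_zsmul ℂ]
  rfl

/-- exactness of the Koszul complex of free modules over `ℂ[x]` (`W = 0`) and over `ℂ[x]/(W)` -/
theorem KE_free (hW : V.Hg 6 W) {j : ℕ} (hj : 1 ≤ j) (hj2 : W ≠ 0 → 2 ≤ j) :
    KE (FrO W q) j := by
  classical
  intro a b c hab hbc f hf hD
  have hl : ∀ J, ∃ (v : ι → MvPolynomial (Fin 6) ℂ) (h : ∀ k, V.Hg (2 * b - q k) (v k)),
      FrO.mk W v h = f J ∧ (J.card ≠ j → v = 0) := by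
    intro J
    by_cases hJ : J.card = j
    · obtain ⟨v, h, e⟩ := FrO.mk_surj W (f J)
      exact ⟨v, h, e, fun h' => absurd hJ h'⟩
    · exact ⟨0, fun k => hga_zero _, by rw [hf J hJ]; rfl, fun _ => rfl⟩
  choose v hv hv1 hv2 using hl
  have hh : ∀ J k, V.Hg (2 * c - q k) (io (mu (xs (σ := Fin 6))) (fun I => v I k) J) := by
    intro J k
    refine hga_sum _ fun i _ => ?_
    rw [mu_apply, ← Int.cast_smul_eq_zsmul ℂ]
    exact hga_smul _ (hga_mul' (hga_X i) (hv _ k) (by lia))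
  have h0 : ∀ k J, W ∣ io (mu (xs (σ := Fin 6))) (fun I => v I k) J := by
    intro k J
    have h1 := hD J
    rw [show f = fun I => FrO.mk W (v I) (hv I) from funext fun I => (hv1 I).symm,
      kD_mk W hbc v hv J (hh J), FrO.mk_eq_zero] at h1
    exact h1 k
  choose g hg1 hg2 hg3 using fun k => kos_poly hW hj hj2 (n := 2 * b - q k) (fun I => v I k)
    (fun I => hv I k) (fun I hI => congrFun (hv2 I hI) k) (h0 k)
  have hg1' : ∀ I k, V.Hg (2 * a - q k) (g k I) := by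
    intro I k
    have := hg1 k I
    rwa [show 2 * b - q k - 2 = 2 * a - q k by lia] at this
  refine ⟨fun I => FrO.mk W (fun k => g k I) (hg1' I), fun J hJ => ?_, fun J => ?_⟩
  · refine (FrO.mk_eq_zero W).2 fun k => ?_
    rw [hg2 k J hJ]
    exact dvd_zero _
  · have hh' : ∀ k, V.Hg (2 * b - q k) (io (mu (xs (σ := Fin 6))) (fun I => g k I) J) := by
      intro k
      refine hga_sum _ fun i _ => ?_
      rw [mu_apply, ← Int.cast_smul_eq_zsmul ℂ]
      exact hga_smul _ (hga_mul' (hga_X i) (hg1' _ k) (by lia))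
    rw [kD_mk W hab (fun I k => g k I) hg1' J hh', ← hv1 J, FrO.mk_eq]
    intro k
    have := hg3 k J
    rw [← dvd_neg, neg_sub]
    exact this

end

end Vale.Agent.P287Z.O.H503
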