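import Vale.Agent.P287Z.O.H503.Kz2

/-!
# Graded Nakayama: finitely generated modules with exact Koszul complex at the position 1 are free
(P287 port of P294-L, block B9)
-/

open CategoryTheory Limits MvPolynomial

namespace Vale.Agent.P287Z.O.H503

open L H335

/-- `g` generates `N` -/
def Gn (N : GrS) (r : ℕ) (a : Fin r → ℤ) (g : ∀ i, N.obj ⟨a i⟩) : Prop :=
  ∀ (b : ℤ) (v : N.obj ⟨b⟩), ∃ s : Fin r → MvPolynomial (Fin 6) ℂ,
    (∀ i, V.Hg (2 * b - 2 * a i) (s i)) ∧ v = ∑ i, act N (s i) (a i) b (g i)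

theorem exists_gn {N : GrS} (h : fg N) : ∃ r a g, Gn N r a g := by
  classical
  obtain ⟨r, a, g, h⟩ := h
  refine ⟨r, a, g, fun b v => ?_⟩
  refine Submodule.span_induction (p := fun v _ => ∃ s : Fin r → MvPolynomial (Fin 6) ℂ,
    (∀ i, V.Hg (2 * b - 2 * a i) (s i)) ∧ v = ∑ i, act N (s i) (a i) b (g i)) ?_ ?_ ?_ ?_ (h b v)
  · rintro _ ⟨i, m, rfl⟩
    have hm : a i + (m.1.degree : ℤ) = b := m.2
    refine ⟨Pi.single i (monomial m.1 1), fun j => ?_, ?_⟩
    · by_cases hj : j = i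
      · subst hj
        rw [Pi.single_eq_same]
        exact hga_monomial 1 (by lia)
      · rw [Pi.single_eq_of_ne hj]
        exact hga_zero _
    · rw [Finset.sum_eq_single i]
      · rw [Pi.single_eq_same, act_monomial, one_smul, mon_apply_of_eq m.1 hm]
        rfl
      · intro j _ hj
        rw [Pi.single_eq_of_ne hj, act_zero_apply]
      · intro hi
        exact absurd (Finset.mem_univ i) hi
  · exact ⟨0, fun i => hga_zero _, by simp⟩
  · rintro _ _ _ _ ⟨s, hs, rfl⟩ ⟨t, ht, rfl⟩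
    refine ⟨s + t, fun i => hga_add (hs i) (ht i), ?_⟩
    rw [← Finset.sum_add_distrib]
    exact Finset.sum_congr rfl fun i _ => (act_add_apply _ _ _ _ _).symm
  · rintro c _ _ ⟨s, hs, rfl⟩
    refine ⟨c • s, fun i => hga_smul c (hs i), ?_⟩
    rw [Finset.smul_sum]
    exact Finset.sum_congr rfl fun i _ => (act_smul_apply _ _ _ _ _).symm

/-- a generator which occurs with a constant coefficient in a relation can be removed -/
theorem gn_remove {N : GrS} {r : ℕ} {a : Fin (r + 1) → ℤ} {g : ∀ i, N.obj ⟨a i⟩}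
    (h : Gn N (r + 1) a g) (k : Fin (r + 1)) (s : Fin (r + 1) → MvPolynomial (Fin 6) ℂ)
    (hs : ∀ i, V.Hg (2 * a k - 2 * a i) (s i)) {c : ℂ} (hsk : s k = C c) (hc : c ≠ 0)
    (h0 : ∑ i, act N (s i) (a i) (a k) (g i) = 0) :
    Gn N r (fun i => a (k.succAbove i)) (fun i => g (k.succAbove i)) := by
  intro b v
  obtain ⟨t, ht, rfl⟩ := h b v
  have hck : act N (s k) (a k) (a k) (g k) = c • g k := by
    have : (C c : MvPolynomial (Fin 6) ℂ) = c • 1 := by
      rw [MvPolynomial.smul_eq_C_mul, mul_one]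
    rw [hsk, this, act_smul_apply, act_one_apply]
  rw [Fin.sum_univ_succAbove _ k, hck] at h0
  have hg : g k = ∑ i, act N ((-c⁻¹) • s (k.succAbove i)) (a (k.succAbove i)) (a k)
      (g (k.succAbove i)) := by
    have h1 : c • g k = - ∑ i, act N (s (k.succAbove i)) (a (k.succAbove i)) (a k)
      (g (k.succAbove i)) := eq_neg_of_add_eq_zero_left h0
    have h2 : g k = c⁻¹ • (c • g k) := by rw [smul_smul, inv_mul_cancel₀ hc, one_smul]
    rw [h2, h1, smul_neg, Finset.smul_sum, ← Finset.sum_neg_distrib]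
    refine Finset.sum_congr rfl fun i _ => ?_
    rw [act_smul_apply, neg_smul]
  refine ⟨fun i => t (k.succAbove i) + ((-c⁻¹) • s (k.succAbove i)) * t k, fun i => ?_, ?_⟩
  · exact hga_add (ht _) (hga_mul' (hga_smul _ (hs _)) (ht k) (by ring))
  · rw [Fin.sum_univ_succAbove _ k]
    have h3 : act N (t k) (a k) b (g k) = ∑ i, act N (((-c⁻¹) • s (k.succAbove i)) * t k)
        (a (k.succAbove i)) b (g (k.succAbove i)) := by
      conv_lhs => rw [hg]
      rw [map_sum]
      refine Finset.sum_congr rfl fun i _ => ?_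
      rw [act_mul_apply (t k) (b := a k) (by
        have := hga_smul (-c⁻¹) (hs (k.succAbove i))
        rwa [← mul_sub] at this)]
    rw [h3, add_comm, ← Finset.sum_add_distrib]
    exact Finset.sum_congr rfl fun i _ => (act_add_apply _ _ _ _ _).symm

theorem const_of_hg {p : MvPolynomial (Fin 6) ℂ} (hp : V.Hg 0 p) : p = C (p.coeff 0) := by
  classical
  ext m
  rw [coeff_C]
  by_cases hm : m = 0
  · subst hm
    rw [if_pos rfl]
  · rw [if_neg (fun h => hm h.symm)]
    by_contra h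
    have := (hg_iff.1 hp) m (mem_support_iff.2 h)
    exact hm ((Finsupp.degree_eq_zero_iff m).1 (by lia))

theorem min_const {N : GrS} {r : ℕ} {a : Fin r → ℤ} {g : ∀ i, N.obj ⟨a i⟩} (h : Gn N r a g)
    (hmin : ∀ m < r, ¬ ∃ a g, Gn N m a g) {b : ℤ} (s : Fin r → MvPolynomial (Fin 6) ℂ)
    (hs : ∀ i, V.Hg (2 * b - 2 * a i) (s i)) (h0 : ∑ i, act N (s i) (a i) b (g i) = 0)
    (k : Fin r) : (s k).coeff 0 = 0 := by
  by_contra hne
  have hb : b = a k := by
    have := (hg_iff.1 (hs k)) 0 (mem_support_iff.2 hne)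
    simp at this
    lia
  subst hb
  cases r with
  | zero => exact k.elim0
  | succ r =>
    refine hmin r (Nat.lt_succ_self r) ⟨_, _, gn_remove h k s hs (const_of_hg ?_) hne h0⟩
    have := hs k
    rwa [sub_self] at this

theorem kill0 (N : GrS) : killed 0 N := fun a b => act_zero N a b

/-- the first step of the Koszul complex: homogeneous polynomials without constant coefficient -/
theorem kos_poly0 {n : ℤ} (p : MvPolynomial (Fin 6) ℂ) (hp : V.Hg n p) (h0 : p.coeff 0 = 0) :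
    ∃ g : Finset (Fin 6) → MvPolynomial (Fin 6) ℂ, (∀ I, V.Hg (n - 2) (g I)) ∧
      (∀ I, I.card ≠ 1 → g I = 0) ∧ io (mu (xs (σ := Fin 6))) g ∅ = p := by
  classical
  by_cases hp0 : p = 0
  · refine ⟨fun _ => 0, fun _ => hga_zero _, fun _ _ => rfl, ?_⟩
    rw [hp0]
    simp [io]
  have hn : 2 ∣ n := by
    by_contra h
    exact hp0 (hga_odd_eq_zero hp h)
  obtain ⟨k, rfl⟩ := hn
  have hk : k ≠ 0 := by
    rintro rfl
    refine hp0 ?_
    have hp' : V.Hg 0 p := by simpa using hp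
    rw [const_of_hg hp', h0, C_0]
  have hf : ∀ I : Finset (Fin 6), Hz (k - I.card) (if I = ∅ then p else 0) := by
    intro I
    by_cases hI : I = ∅
    · subst hI
      rw [if_pos rfl, Finset.card_empty, Nat.cast_zero, sub_zero]
      exact hg_hz.1 hp
    · rw [if_neg hI]
      exact Hz.zero _
  obtain ⟨g, h1, h2, h3⟩ := io_exact (σ := Fin 6) (fun I => if I = ∅ then p else 0) k hk hf
    (fun J => Finset.sum_eq_zero fun i _ => by
      dsimp only
      rw [if_neg (Finset.insert_ne_empty i J), map_zero, smul_zero])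
  have h4 := h3 0 (fun I hI => if_neg fun h => hI (by rw [h, Finset.card_empty]))
  rw [zero_add] at h4
  refine ⟨g, fun I => ?_, h4, by rw [h2]; simp⟩
  by_cases hI : I.card = 1
  · have h5 := h1 I
    rw [hI] at h5
    rw [show 2 * k - 2 = 2 * (k - 1) by ring, hg_hz]
    exact_mod_cast h5
  · rw [h4 I hI]
    exact hga_zero _

/-- **graded Nakayama** -/
theorem free_of_KE {N : GrS} (hN : fg N) (hK : KE N 1) :
    ∃ (r : ℕ) (a : Fin r → ℤ) (π : FrO 0 (fun i => 2 * a i) ⟶ N),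
      ∀ b : ℤ, Function.Bijective (π.app ⟨b⟩) := by
  classical
  obtain ⟨r, ⟨a, g, hg⟩, hmin⟩ : ∃ r, (∃ a g, Gn N r a g) ∧ ∀ m < r, ¬ ∃ a g, Gn N m a g :=
    ⟨Nat.find (exists_gn hN), Nat.find_spec (exists_gn hN), fun m hm =>
      Nat.find_min (exists_gn hN) hm⟩
  let π : FrO 0 (fun i => 2 * a i) ⟶ N := desc (kill0 N) (hga_zero 6)
    (fun i => act N 1 (a i) (2 * a i / 2) (g i))
  have hπ : ∀ (b : ℤ) (s : Fin r → MvPolynomial (Fin 6) ℂ)
      (hs : ∀ i, V.Hg (2 * b - 2 * a i) (s i)),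
      π.app ⟨b⟩ (FrO.mk 0 s hs) = ∑ i, act N (s i) (a i) b (g i) := by
    intro b s hs
    refine (desc_mk (kill0 N) (hga_zero 6) _ hs).trans (Finset.sum_congr rfl fun i _ => ?_)
    rw [← act_mul_apply (s i) (f := 1) (a := a i) (b := 2 * a i / 2) (by
      rw [show 2 * (2 * a i / 2 - a i) = 0 by lia]
      exact hga_one) b (g i), one_mul]
  obtain ⟨L, hL⟩ : ∃ L : ℤ, ∀ i, L ≤ a i := by
    obtain ⟨L, hL⟩ := (Set.finite_range a).bddBelow
    exact ⟨L, fun i => hL ⟨i, rfl⟩⟩
  have key : ∀ n : ℕ, ∀ b : ℤ, b < L + n → ∀ v : (FrO 0 (fun i => 2 * a i)).obj ⟨b⟩,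
      π.app ⟨b⟩ v = 0 → v = 0 := by
    intro n
    induction n with
    | zero =>
      intro b hb v _
      obtain ⟨s, hs, rfl⟩ := FrO.mk_surj 0 v
      refine (FrO.mk_eq_zero 0).2 fun i => ?_
      rw [hga_neg_eq_zero (hs i) (by have := hL i; push_cast at hb; lia)]
    | succ n ih =>
      intro b hb v hv
      obtain ⟨s, hs, rfl⟩ := FrO.mk_surj 0 v
      rw [hπ b s hs] at hv
      have hc := min_const hg hmin s hs hv
      choose f hf1 hf2 hf3 using fun k => kos_poly0 (s k) (hs k) (hc k)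
      have hf1' : ∀ I k, V.Hg (2 * (b - 1) - 2 * a k) (f k I) := by
        intro I k
        have := hf1 k I
        rwa [show 2 * b - 2 * a k - 2 = 2 * (b - 1) - 2 * a k by ring] at this
      let F : Finset (Fin 6) → (FrO 0 (fun i => 2 * a i)).obj ⟨b - 1⟩ := fun I =>
        FrO.mk 0 (fun k => f k I) (hf1' I)
      have hF1 : ∀ I, I.card ≠ 0 + 1 → F I = 0 := by
        intro I hI
        refine (FrO.mk_eq_zero 0).2 fun k => ?_
        rw [hf2 k I hI]
      have hF2 : kD (FrO 0 (fun i => 2 * a i)) (b - 1) b F ∅ = FrO.mk 0 s hs := by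
        have := kD_mk (0 : MvPolynomial (Fin 6) ℂ) (q := fun i => 2 * a i) (a := b - 1) (b := b)
          (by ring) (fun I k => f k I) hf1' ∅ (fun k => by rw [hf3 k]; exact hs k)
        rw [this]
        exact FrO.mk_congr 0 (funext hf3)
      obtain ⟨h, hh1, hh2⟩ := hK (b - 1 - 1) (b - 1) b (by ring) (by ring)
        (fun I => (π.app ⟨b - 1⟩).hom (F I)) (fun J hJ => by rw [hF1 J hJ, map_zero])
        (fun J => by
          rw [kD_nat]
          by_cases hJ : J = ∅
          · subst hJ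
            rw [hF2]
            exact (hπ b s hs).trans hv
          · rw [kD_supp _ hF1 J (fun h => hJ (Finset.card_eq_zero.1 h)), map_zero])
      have hl : ∀ J, ∃ w : (FrO 0 (fun i => 2 * a i)).obj ⟨b - 1 - 1⟩,
          (π.app ⟨b - 1 - 1⟩).hom w = h J ∧ (J.card ≠ 1 + 1 → w = 0) := by
        intro J
        by_cases hJ : J.card = 1 + 1
        · obtain ⟨t, ht, e⟩ := hg (b - 1 - 1) (h J)
          exact ⟨FrO.mk 0 t ht, (hπ _ t ht).trans e.symm, fun h' => absurd hJ h'⟩
        · exact ⟨0, by rw [map_zero, hh1 J hJ], fun _ => rfl⟩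
      choose l hl1 hl2 using hl
      have hFl : ∀ J, F J = kD (FrO 0 (fun i => 2 * a i)) (b - 1 - 1) (b - 1) l J := by
        intro J
        rw [← sub_eq_zero]
        refine ih (b - 1) (by push_cast at hb; lia) _ ?_
        change (π.app ⟨b - 1⟩).hom _ = 0
        rw [map_sub, ← kD_nat, show (fun I => (π.app ⟨b - 1 - 1⟩).hom (l I)) = h from funext hl1,
          hh2 J, sub_self]
      rw [← hF2, show F = _ from funext hFl]
      exact kD_kD _ (by ring) l ∅
  refine ⟨r, a, π, fun b => ⟨?_, ?_⟩⟩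
  · intro v w hvw
    rw [← sub_eq_zero]
    refine key (b - L + 1).toNat b (by lia) _ ?_
    have : (π.app ⟨b⟩) (v - w) = π.app ⟨b⟩ v - π.app ⟨b⟩ w := map_sub _ _ _
    rw [this, hvw, sub_self]
  · intro v
    obtain ⟨s, hs, e⟩ := hg b v
    exact ⟨FrO.mk 0 s hs, (hπ b s hs).trans e.symm⟩

end Vale.Agent.P287Z.O.H503
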