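import Vale.Agent.P287Z.O.H503.Kz3
import Vale.Agent.P287Z.O.L.Props
import Vale.Agent.P287Z.O.H741.Mf

/-!
# Syzygies and matrix factorizations: assembly of block B9 (P287 port of P294-L)
-/

open CategoryTheory Limits MvPolynomial

namespace Vale.Agent.P287Z.O.H503

open L H335

variable {W : MvPolynomial (Fin 6) ℂ}

/-- a free cover, over `ℂ[x]/(W)` (or over `ℂ[x]`, `W = 0`) -/
theorem exists_cover (hW : V.Hg 6 W) {N : GrS} (hk : killed W N) (hN : fg N) :
    ∃ (r : ℕ) (a : Fin r → ℤ) (π : FrO W (fun i => 2 * a i) ⟶ N),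
      ∀ (b : ℤ) (v : N.obj ⟨b⟩), ∃ u, (π.app ⟨b⟩).hom u = v := by
  obtain ⟨r, a, g, hg⟩ := exists_gn hN
  refine ⟨r, a, desc hk hW (fun i => act N 1 (a i) (2 * a i / 2) (g i)), fun b v => ?_⟩
  obtain ⟨s, hs, rfl⟩ := hg b v
  refine ⟨FrO.mk W s hs, ?_⟩
  refine (desc_mk hk hW _ hs).trans (Finset.sum_congr rfl fun i _ => ?_)
  rw [← act_mul_apply (s i) (f := 1) (a := a i) (b := 2 * a i / 2) (by
    rw [show 2 * (2 * a i / 2 - a i) = 0 by lia]
    exact hga_one) b (g i), one_mul]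

/-- every module has a first syzygy -/
theorem exists_syz (hW : V.Hg 6 W) [FrOK W] (M : GA W) : ∃ M' : GA W, Syz W M M' := by
  obtain ⟨r, a, π, hπ⟩ := exists_cover hW M.property.1 M.property.2
  let g : FrA W (fun i => 2 * a i) ⟶ M := ObjectProperty.homMk π
  have hg : Epi g := GA_epi_of_surjective W g fun b v => hπ b v
  exact ⟨kernel g, r, _, kernel.ι g, g, kernel.condition g,
    { exact := ShortComplex.exact_kernel g
      mono_f := inferInstanceAs (Mono (kernel.ι g))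
      epi_g := hg }⟩

theorem syz_ses [FrOK W] {M M' : GA W} (h : Syz W M M') :
    ∃ (r : ℕ) (q : Fin r → ℤ) (f : M'.obj ⟶ FrO W q) (g : FrO W q ⟶ M.obj), SES f g := by
  obtain ⟨r, q, f, g, w, hS⟩ := h
  have hf : Mono f := hS.mono_f
  have hg : Epi g := hS.epi_g
  refine ⟨r, q, f.hom, g.hom, ?_, ?_, ?_, ?_⟩
  · intro a v hv
    exact GA_app_injective W f a (hv.trans (map_zero _).symm)
  · intro a v
    exact GA_app_surjective W g a v
  · intro a v
    have h1 := congrArg (fun φ : M' ⟶ M => (φ.hom.app ⟨a⟩).hom v) w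
    exact h1
  · intro a v hv
    exact GA_exact_apply W hS.exact a v hv

theorem syz_KE (hW : V.Hg 6 W) [FrOK W] {M M' : GA W} (h : Syz W M M') {j : ℕ} (hj : 2 ≤ j)
    (hM : KE M.obj (j + 1)) : KE M'.obj j := by
  obtain ⟨r, q, f, g, hS⟩ := syz_ses h
  exact hS.KE hM (KE_free W hW (by lia) fun _ => hj)

/-- resolution of length one over `ℂ[x]` of a module with exact Koszul complex in the positions
`≥ 2` -/
theorem exists_res {N : GrS} (hN : fg N) (h2 : KE N 2) :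
    ∃ (r r' : ℕ) (a : Fin r → ℤ) (a' : Fin r' → ℤ)
      (ι : FrO 0 (fun i => 2 * a' i) ⟶ FrO 0 (fun i => 2 * a i))
      (π : FrO 0 (fun i => 2 * a i) ⟶ N), SES ι π := by
  obtain ⟨r, a, π, hπ⟩ := exists_cover (hga_zero 6) (kill0 N) hN
  have hS : SES (kernel.ι π) π := by
    have hE := ShortComplex.exact_kernel π
    refine ⟨?_, hπ, ?_, ?_⟩
    · intro b v hv
      exact app_injective (kernel.ι π) ⟨b⟩ (hv.trans (map_zero _).symm)
    · intro b v
      have h1 := congrArg (fun φ => (φ.app ⟨b⟩).hom v) (kernel.condition π)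
      exact h1
    · intro b v hv
      exact exact_apply hE b v hv
  have hK1 : KE (kernel π) 1 := hS.KE h2 (KE_free 0 (hga_zero 6) le_rfl fun h => absurd rfl h)
  obtain ⟨r', a', π', hπ'⟩ := free_of_KE (fg_of_mono (kernel.ι π) (FrO.fg 0)) hK1
  refine ⟨r, r', a, a', π' ≫ kernel.ι π, π, ?_, hπ, ?_, ?_⟩
  · intro b v hv
    have h1 := hS.inj b _ hv
    exact (hπ' b).1 (h1.trans (map_zero _).symm)
  · intro b v
    exact hS.w b _
  · intro b v hv
    obtain ⟨u, hu⟩ := hS.ex b v hv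
    obtain ⟨t, ht⟩ := (hπ' b).2 u
    refine ⟨t, ?_⟩
    rw [← hu, ← ht]
    rfl

/-- **B9**: every fourth syzygy over `A` is the kernel of `T¹ ⟶ T²` for a matrix factorization -/
theorem gldSt (hW : V.Hg 6 W) (hW0 : W ≠ 0) [FrOK W] : GldSt W := by
  intro M
  obtain ⟨M₀, h0⟩ := exists_syz hW M
  obtain ⟨M₁, h1⟩ := exists_syz hW M₀
  obtain ⟨M₂, h2⟩ := exists_syz hW M₁
  obtain ⟨M₃, h3⟩ := exists_syz hW M₂
  obtain ⟨M₄, h4⟩ := exists_syz hW M₃
  have k6 := syz_KE hW h0 (j := 6) (by lia) (KE_six M.obj le_rfl)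
  have k5 := syz_KE hW h1 (j := 5) (by lia) k6
  have k4 := syz_KE hW h2 (j := 4) (by lia) k5
  have k3 := syz_KE hW h3 (j := 3) (by lia) k4
  have k2 := syz_KE hW h4 (j := 2) (by lia) k3
  obtain ⟨r, r', a, a', ι, π, hS⟩ := exists_res M₄.property.2 k2
  exact ⟨M₀, M₁, M₂, M₃, M₄, h0, h1, h2, h3, h4, H741.mf_of_res hW hW0 M₄ _ _
    (fun i => even_two_mul _) (fun i => even_two_mul _) ι π hS.inj hS.sur hS.w hS.ex⟩

end Vale.Agent.P287Z.O.H503
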